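import Vale.Agent.P272.K.Stmt

/-! P299: invariant sections, pluricanonical sections, twisted covariant tensors. -/

namespace Vale.Agent.N299

open Vale.Agent.P272.K

variable {n : ℕ} {X : Type*} [TopologicalSpace X] [ChartedSpace (Cm n) X]

/-- The section `s e · (∂_1 ∧ … ∧ ∂_n)^m` of `-mK_X` is invariant under the map `g : X → X`. -/
def IsInvariant (m : ℕ) (s : Chart n X → Cm n → ℂ) (g : X → X) : Prop :=
  ∀ e e' x, At e x → At e' (g x) →
    s e (e x) * (Matrix.of fun p i => dz i (fun z => e' (g (e.symm z)) p) (e x)).det ^ m =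
      s e' (e' (g x))

/-- `s` is a holomorphic section of `mK_X`: in the chart `e` it is `s e · (dz_1 ∧ … ∧ dz_n)^m`. -/
structure IsCanonicalSection (m : ℕ) (s : Chart n X → Cm n → ℂ) : Prop where
  holomorphic : ∀ e x, At e x → AnalyticAt ℂ (s e) (e x)
  change : ∀ e e' x, At e x → At e' x → s e (e x) = (jacM e e' x).det ^ m * s e' (e' x)

/-- `s` is a holomorphic section of `(Ω¹_X)^{⊗k} ⊗ (-mK_X)`: in the chart `e` it is
`Σ_I s e I · dz_{I 1} ⊗ … ⊗ dz_{I k} ⊗ (∂_1 ∧ … ∧ ∂_n)^m`. -/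
structure IsTensorSection (k m : ℕ) (s : Chart n X → Cm n → (Fin k → Fin n) → ℂ) : Prop where
  holomorphic : ∀ e x, At e x → ∀ I, AnalyticAt ℂ (fun z => s e z I) (e x)
  change : ∀ e e' x, At e x → At e' x → ∀ I, (jacM e e' x).det ^ m * s e (e x) I =
    ∑ J : Fin k → Fin n, (∏ a, jacM e e' x (J a) (I a)) * s e' (e' x) J

end Vale.Agent.N299
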