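import Vale.Agent.N299.Max
import Vale.Agent.P299.H223.Top0
import Vale.Agent.P299.H223.Hom
import Vale.Agent.P299.H598.PartI

/-!
P299: closed submanifolds of projective space, invariant sections, and the Kähler case.
-/

open scoped Manifold ContDiff ComplexOrder Topology LinearAlgebra.Projectivization
open Vale.Agent.P272.K Vale.Agent.P299 Vale.Agent.P299.Final Vale.Agent.P299.D
  Vale.Agent.P299.H996 Vale.Agent.P299.H956 Vale.Agent.P278.H837 Vale.Agent.P300.Final

namespace Vale.Agent.N299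

section
variable {n m : ℕ} {X : Type*} [TopologicalSpace X] [ChartedSpace (Cm n) X]

theorem tenPull_zero (J : Matrix (Fin n) (Fin n) ℂ) (t : (Fin 0 → Fin n) → ℂ) (I : Fin 0 → Fin n) :
    tenPull J t I = t I := by
  unfold tenPull
  rw [Fintype.sum_eq_single I (fun K hK => absurd (Subsingleton.elim K I) hK)]
  simp

theorem sec_of_ten {s : Ten n 0 X} (hs : IsTen 0 m s) :
    IsAnticanonicalSection m fun e z => s e z (e0 n) := by
  refine ⟨fun e x h => hs.holo e x h _, fun e e' x h h' => ?_⟩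
  rw [mul_comm, hs.change e e' x h h', tenPull_zero]

theorem nz_of_ten {s : Ten n 0 X} (hs : TenNZ s) : IsNonzeroSection fun e z => s e z (e0 n) := by
  obtain ⟨e, x, I, h, hne⟩ := hs
  exact ⟨e, x, h, by rwa [Subsingleton.elim (e0 n) I]⟩

variable [IsManifold 𝓘(ℂ, Cm n) ω X]

/-- The product of the translates of a section under a finite group. -/
theorem exists_invariant [ConnectedSpace X] {s : Ten n 0 X} (hs : IsTen 0 m s) (hne : TenNZ s)
    (G : Type) [Group G] [Finite G] [MulAction G X]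
    (hG : ∀ g : G, ContMDiff 𝓘(ℂ, Cm n) 𝓘(ℂ, Cm n) ω fun x : X => g • x) :
    ∃ t : Chart n X → Cm n → ℂ, IsAnticanonicalSection (m * Nat.card G) t ∧ IsNonzeroSection t ∧
      ∀ g : G, IsInvariant (m * Nat.card G) t fun x => g • x := by
  classical
  have := Fintype.ofFinite G
  have hi : ∀ g : G, Immersive n n fun x : X => g • x := fun g =>
    immersive_of_leftInverse (g := fun x : X => g⁻¹ • x) (hG g) (hG g⁻¹) fun y => inv_smul_smul g y
  have hu : ∀ g : G, IsTen 0 m (tenPB m (fun x : X => g • x) s) := fun g =>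
    isTen_tenPB (hG g) (hi g) hs
  rw [Nat.card_eq_fintype_card]
  refine ⟨fun e z => ∏ g : G, tenPB m (fun x : X => g • x) s e z (e0 n), ⟨fun e x h => ?_,
    fun e e' x h h' => ?_⟩, ?_, fun g e e' x h h' => ?_⟩
  · exact Finset.analyticAt_fun_prod _ fun g _ => (hu g).holo e x h _
  · rw [pow_mul, ← Finset.card_univ, ← Finset.prod_const, ← Finset.prod_mul_distrib]
    exact Finset.prod_congr rfl fun g _ => (sec_of_ten (hu g)).change e e' x h h'
  · obtain ⟨y, hy⟩ := exists_common_nz (fun g : G => tenPB m (fun x : X => g • x) s) hu fun g => by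
      obtain ⟨y, hy⟩ := (tenNZ_iff hs).1 hne
      refine ⟨g⁻¹ • y, ?_⟩
      have hc := H956.at_chartAt (n := n) (g⁻¹ • y)
      have hc' := H956.at_chartAt (n := n) (g • g⁻¹ • y)
      rw [mem_nzSet_iff (hu g) hc, tenPB_eq (hG g) hs hc hc']
      refine act_ne_zero (det_inj (hi g _ _ _ hc hc')) ?_
      rw [← mem_nzSet_iff hs hc', smul_inv_smul]
      exact hy
    have hc := H956.at_chartAt (n := n) y
    refine ⟨_, y, hc, Finset.prod_ne_zero_iff.2 fun g _ h0 => ?_⟩
    refine (mem_nzSet_iff (hu g) hc).1 (hy g) (funext fun I => ?_)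
    rw [Subsingleton.elim I (e0 n)]
    exact h0
  · change (∏ k : G, tenPB m (fun x : X => k • x) s e (e x) (e0 n)) *
      (jacF (fun x : X => g • x) e e' x).det ^ (m * Fintype.card G) = _
    rw [pow_mul, ← Finset.card_univ, ← Finset.prod_const, ← Equiv.prod_comp (Equiv.mulRight g),
      ← Finset.prod_mul_distrib]
    refine Finset.prod_congr rfl fun k _ => ?_
    have hc := H956.at_chartAt (n := n) (k • g • x)
    have hc' : At (chartAt (Cm n) (k • g • x)) ((k * g) • x) := by rw [mul_smul]; exact hc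
    have h1 := act_zero_slots _ (det_inj (hi g e e' x h h'))
      (tenPB m (fun x : X => k • x) s e' (e' (g • x))) m
    rw [← h1, mul_comm, Equiv.coe_mulRight, tenPB_eq (hG (k * g)) hs h hc',
      tenPB_eq (hG k) hs h' hc, ← act_mul,
      ← H956.jacF_comp (hG g).contMDiffAt (hG k).contMDiffAt h h' hc]
    simp only [mul_smul]

end

variable {n : ℕ} {X : Type} [TopologicalSpace X] [T2Space X] [CompactSpace X] [ConnectedSpace X]
  [ChartedSpace (Cm n) X] [IsManifold 𝓘(ℂ, Cm n) ω X] {φ : Chart n X → Cm n → ℝ}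

/-- The Kähler metric whose Ricci form is the curvature of `φ`. -/
theorem exists_ric {χ : FormM n X} (hχ : IsKahler χ) (hφ : IsAnticanonicalMetric φ) :
    ∃ w : FormM n X, IsKahler w ∧ ∀ e x, At e x → ric w e (e x) = cHess (φ e) (e x) := by
  obtain ⟨u, c, -, hu, -, hric⟩ := H835.yauMetric hχ (H223.isCanonicalMetric_neg hφ)
  refine ⟨_, hu, fun e x h => ?_⟩
  rw [ric, hric e x h, H223.neg_cHess_neg (hφ.smooth e x h)]

theorem tensors {χ : FormM n X} (hχ : IsKahler χ) (hφ : IsAnticanonicalMetric φ)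
    (hpos : IsSemipositive φ) :
    ∃ k : ℕ, ∀ m₀ : ℕ, ∃ m : ℕ, m₀ ≤ m ∧ ∃ s : Ten n k X, IsTen k m s ∧ TenNZ s := by
  obtain ⟨w, hw, hric⟩ := exists_ric hχ hφ
  exact PartI.tensorStatement n X w hw fun e x h => by rw [hric e x h]; exact hpos e x h

theorem kahler_of {N : ℕ} {Φ : X → ℙ ℂ (Fin (N + 1) → ℂ)} (hΦ : IsProjectiveImmersion (Cm n) Φ) :
    ∃ w : FormM n X, IsKahler w := by
  obtain ⟨L⟩ := H223.exists_lifts hΦ
  exact ⟨L.fs, L.isKahler⟩

/-- Nonvanishing for closed complex submanifolds of projective space. -/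
theorem nonvanishing {N : ℕ} {Φ : X → ℙ ℂ (Fin (N + 1) → ℂ)} (hinj : Function.Injective Φ)
    (hΦ : IsProjectiveImmersion (Cm n) Φ) (hφ : IsAnticanonicalMetric φ)
    (hpos : IsSemipositive φ) : ∃ m : ℕ, 0 < m ∧ ∃ s : Ten n 0 X, IsTen 0 m s ∧ TenNZ s := by
  obtain ⟨χ, hχ⟩ := kahler_of hΦ
  obtain ⟨k, hk⟩ := tensors hχ hφ hpos
  obtain ⟨D⟩ := H223.projData_of hinj hΦ
  have hK := H223.isCanonicalMetric_neg hφ
  by_cases hbot : H212.kp D.K D.fm = ⊥
  · exact H212.bot_branch D hbot k hk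
  · refine H223.top_branch D hbot hK (fun e x h => ?_) k hk (H223.homProp D) ?_
    · rw [H223.neg_cHess_neg (hφ.smooth e x h)]
      exact hpos e x h
    · intro _ _ _ _ _ _ k' _ _ _ ι
      exact H223.ptsProp D (H212.kp D.K D.fm) (fun f hf => ⟨⟨f, hf⟩, rfl⟩) ι hK

/-- In the Ricci flat case the third factor of the universal covering is a point. -/
theorem isEmpty_two {w : FormM n X} (hw : IsKahler w) (h0 : RicZero w) (S : Split n X w) :
    IsEmpty (Fin (S.d 2)) := by
  have hP : D1.PD (sig S) S.Φ := ⟨S.Φ_hol, S.slice_hol, S.jac_inj⟩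
  obtain ⟨m₁⟩ : Nonempty S.M := inferInstance
  have hz : RicZero (S.wY 2) := by
    intro c z hc
    obtain ⟨m, hm⟩ := S.Φ.surjective (Function.update (S.Φ m₁) 2 z)
    have hm2 : S.Φ m 2 = z := by rw [hm, Function.update_self]
    subst hm2
    have h' : ∀ j, At (Function.update
        (fun j => (chartAt (Cm (S.d j)) (S.Φ m j) : Chart (S.d j) (S.Y j))) 2 c j) (S.Φ m j) := by
      intro j
      by_cases hj : j = 2
      · subst hj
        rwa [Function.update_self]
      · rw [Function.update_of_ne hj]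
        exact H956.at_chartAt _
    have he := H956.at_chartAt (n := n) m
    have h1 := D1.ric_slc hP (fun i => (S.kahY i).toIsHermitian) S.prod he h' 2
    rw [ric_local hw.toIsHermitian S.loc.contMDiff (immersive_of_localDiffeo S.loc) he
      (H956.at_chartAt _), h0 _ _ (H956.at_chartAt _), Function.update_self] at h1
    simpa using h1
  have h1 := S.noEnd (fun _ _ => 1) ⟨fun _ _ _ _ _ => analyticAt_const, fun _ _ _ _ _ => by simp⟩
    (fun _ _ _ => by simp) (fun e y h => by rw [hz e y h, Matrix.mul_zero]) _ _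
    (H956.at_chartAt (S.Φ m₁ 2))
  exact ⟨fun i => by simpa using congrFun (congrFun h1 i) i⟩

/-- On a compact Kähler manifold with a flat metric on `-K` some `-mK` has a nonzero section. -/
theorem flat_section {χ : FormM n X} (hχ : IsKahler χ) (hφ : IsAnticanonicalMetric φ)
    (h0 : ∀ e x, At e x → cHess (φ e) (e x) = 0) :
    ∃ m : ℕ, 0 < m ∧ ∃ s : Ten n 0 X, IsTen 0 m s ∧ TenNZ s := by
  obtain ⟨w, hw, hric⟩ := exists_ric hχ hφ
  have hz : RicZero w := fun e x h => (hric e x h).trans (h0 e x h)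
  have hr : RicNonneg w := fun e x h => by rw [hz e x h]; exact Matrix.PosSemidef.zero
  obtain ⟨S⟩ := H227.Asm.d1Statement n X w hw hr
  obtain ⟨hc1, hc2⟩ := H760.d2 n X w hw hr S
  obtain ⟨G3, hG3, -, -, hG3t⟩ := H227.d3Statement n X w hw hr S hc1 hc2
  obtain ⟨s1, hs1, hs1ne, G4, hG4, hG4i⟩ := H720.d4a n X w hw hr S hc1
  have := isEmpty_two hw hz S
  obtain ⟨N, hN, hnorm⟩ := exists_norm (π := S.π) S.loc (G3 ⊓ G4) inferInstance
  have hs0 := isTen_s0 S
  have hs2 : IsTen 0 1 (fun _ _ _ => 1 : Ten (S.d 2) 0 (S.Y 2)) :=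
    ⟨fun _ _ _ _ => analyticAt_const, fun _ _ _ _ _ _ => by simp [tenPull_zero]⟩
  obtain ⟨y₂⟩ : Nonempty (S.Y 2) := inferInstance
  obtain ⟨U, hU, hUnz, hUinv⟩ := hnorm 0 1 _ (isTen_uM S hs0 hs1 hs2)
    (tenNZ_uM S hs0 hs1 hs2 (fun e y h => s0_ne S e y h) (fun e y h => hs1ne e y _ h)
      ⟨_, y₂, e0 _, H956.at_chartAt _, one_ne_zero⟩) fun γ hγ => by
      obtain ⟨a, ha⟩ := hG3t _ hγ.1
      exact invDeck_uM S hs0 hs1 hs2 _ (s0_inv S _ a ha) (hG4i _ hγ.2)
        fun _ _ _ _ _ _ => by simp [tenPull_zero]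
  obtain ⟨s, hs, hsU⟩ := exists_descend S.loc S.surj (fun y y' h => (S.gal y y').1 h) hU hUinv
  refine ⟨1 * N, by omega, s, hs, ?_⟩
  obtain ⟨e, y, I, h, hne⟩ := hUnz
  have hc := H956.at_chartAt (n := n) (S.π y)
  refine (tenNZ_iff hs).2 ⟨S.π y, (mem_nzSet_iff hs hc).2 fun h0 => hne ?_⟩
  rw [hsU e _ y h hc, h0, act_zero]
  rfl

end Vale.Agent.N299
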