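import Vale.Agent.N299.Defs
import Vale.Agent.P299.H223.Defs
import Vale.Agent.P299.H587.SMP
import Vale.Agent.P299.H738.OpG

/-!
P299: sections of constant norm. The maximum principle for the norm of a holomorphic section with
respect to a metric of seminegative curvature.
-/

open scoped Manifold ContDiff ComplexOrder Topology
open Vale.Agent.P272.K Vale.Agent.P299 Vale.Agent.P299.Final Filter

namespace Vale.Agent.N299

variable {n : ℕ} {X : Type*} [TopologicalSpace X] [ChartedSpace (Cm n) X]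

theorem log_weight {f : Cm n → ℂ} {ψ : Cm n → ℝ} {z : Cm n} (hf : AnalyticAt ℂ f z)
    (hψ : ContDiffAt ℝ ∞ ψ z) (h0 : f z ≠ 0) :
    ContDiffAt ℝ 2 (fun y => Real.log (‖f y‖ ^ 2) + ψ y) z ∧
      cHess (fun y => Real.log (‖f y‖ ^ 2) + ψ y) z = cHess ψ z := by
  have hf' : ContDiffAt ℂ ω f z := hf.contDiffAt
  have h1 : ContDiffAt ℝ 2 f z := (hf'.restrict_scalars ℝ).of_le le_top
  have h2 : ContDiffAt ℝ 2 (fun y => Real.log (‖f y‖ ^ 2)) z :=
    (h1.norm_sq ℝ).log (pow_ne_zero 2 (norm_ne_zero_iff.2 h0))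
  have h3 : ContDiffAt ℝ 2 ψ z := hψ.of_le (by exact WithTop.coe_le_coe.2 le_top)
  exact ⟨h2.add h3, by rw [cHess_add h2 h3, cHess_log_norm_sq hf' h0, zero_add]⟩

/-- The strong maximum principle for `C²` plurisubharmonic functions. -/
theorem local_max {U : Set (Cm n)} (hU : IsOpen U) {L : Cm n → ℝ}
    (hL : ∀ z ∈ U, ContDiffAt ℝ 2 L z) (hpos : ∀ z ∈ U, (cHess L z).PosSemidef) {c : ℝ}
    (hc : ∀ z ∈ U, L z ≤ c) {z₀ : Cm n} (hz₀ : z₀ ∈ U) (h0 : L z₀ = c) :
    ∀ᶠ z in 𝓝 z₀, L z = c := by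
  have h := H587.smp (Cm n) (fun _ => H760.opG 1) U
    (H738.ellOn_opG (g := fun _ => 1) hU (fun _ _ _ _ => contDiffAt_const)
      fun _ _ => Matrix.PosDef.one) (fun _ => 0) continuousOn_const 0 (fun z => c - L z)
    (fun z hz => contDiffAt_const.sub (hL z hz)) (fun z hz => sub_nonneg.2 (hc z hz)) ?_ z₀ hz₀
    (by simp [h0])
  · filter_upwards [h] with z hz
    exact (sub_eq_zero.1 hz).symm
  · intro z hz
    have h1 := H738.lop_opG (g := fun _ => 1) (u := fun z => c - L z)
      (contDiffAt_const.sub (hL z hz))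
    rw [h1, D2.lapG, cHess_sub contDiffAt_const (hL z hz), C2.cHess_const]
    have h2 := (Complex.nonneg_iff.1 (hpos z hz).trace_nonneg).1
    simpa using h2

variable [IsManifold 𝓘(ℂ, Cm n) ω X]

/-- A nonzero holomorphic section of a line bundle with a metric `exp ψ` of seminegative curvature
on a compact connected manifold has no zero, and the metric is flat. -/
theorem flat_of_section [CompactSpace X] [ConnectedSpace X] {s : Chart n X → Cm n → ℂ}
    {ψ : Chart n X → Cm n → ℝ} (hs : ∀ e x, At e x → AnalyticAt ℂ (s e) (e x))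
    (hψ : ∀ e x, At e x → ContDiffAt ℝ ∞ (ψ e) (e x))
    (hpos : ∀ e x, At e x → (cHess (ψ e) (e x)).PosSemidef)
    (hch : ∀ e e' x, At e x → At e' x → ‖s e (e x)‖ ^ 2 * Real.exp (ψ e (e x)) =
      ‖s e' (e' x)‖ ^ 2 * Real.exp (ψ e' (e' x)))
    (hne : IsNonzeroSection s) (e : Chart n X) (x : X) (h : At e x) :
    s e (e x) ≠ 0 ∧ cHess (ψ e) (e x) = 0 := by
  have hat : ∀ x : X, At (chartAt (Cm n) x) x := fun x =>
    ⟨chart_mem_atlas _ x, mem_chart_source _ x⟩
  obtain ⟨v, hv⟩ : ∃ v : X → ℝ, ∀ e x, At e x →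
      v x = ‖s e (e x)‖ ^ 2 * Real.exp (ψ e (e x)) :=
    ⟨fun x => ‖s (chartAt (Cm n) x) (chartAt (Cm n) x x)‖ ^ 2 *
      Real.exp (ψ (chartAt (Cm n) x) (chartAt (Cm n) x x)), fun e x h => hch _ e x (hat x) h⟩
  have hvc : Continuous v := by
    refine continuous_iff_continuousAt.2 fun x => ?_
    have hc := hat x
    have h1 : ContinuousAt (fun z => ‖s (chartAt (Cm n) x) z‖ ^ 2 *
        Real.exp (ψ (chartAt (Cm n) x) z)) (chartAt (Cm n) x x) :=
      ((hs _ _ hc).continuousAt.norm.pow 2).mul (hψ _ _ hc).continuousAt.rexp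
    refine (h1.comp ((chartAt (Cm n) x).continuousAt hc.2)).congr ?_
    filter_upwards [(chartAt (Cm n) x).open_source.mem_nhds hc.2] with y hy
    exact (hv _ y ⟨hc.1, hy⟩).symm
  obtain ⟨x₀, -, hx₀⟩ := isCompact_univ.exists_isMaxOn ⟨x, Set.mem_univ x⟩ hvc.continuousOn
  have hmax : ∀ y, v y ≤ v x₀ := fun y => hx₀ (Set.mem_univ y)
  have hM : 0 < v x₀ := by
    obtain ⟨e₁, x₁, h₁, hne⟩ := hne
    refine lt_of_lt_of_le ?_ (hmax x₁)
    rw [hv _ _ h₁]
    have := norm_pos_iff.2 hne
    positivity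
  have hlog : ∀ (e : Chart n X) (z : Cm n), e ∈ atlas (Cm n) X → z ∈ e.target → s e z ≠ 0 →
      Real.log (‖s e z‖ ^ 2) + ψ e z = Real.log (v (e.symm z)) := by
    intro e z he hz h0
    rw [hv e _ (At.of_target he hz), e.right_inv hz,
      Real.log_mul (pow_ne_zero 2 (norm_ne_zero_iff.2 h0)) (Real.exp_pos _).ne', Real.log_exp]
  have hnz : ∀ e y, At e y → v y = v x₀ → s e (e y) ≠ 0 := by
    intro e y h hy h0
    rw [← hy, hv e y h, h0] at hM
    simp at hM
  have hop : IsOpen {y | v y = v x₀} := by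
    rw [isOpen_iff_mem_nhds]
    intro y hy
    have hc := hat y
    obtain ⟨c, hcc⟩ : ∃ c : Chart n X, c = chartAt (Cm n) y := ⟨_, rfl⟩
    rw [← hcc] at hc
    have hat' : ∀ z ∈ c.target, AnalyticAt ℂ (s c) z ∧ ContDiffAt ℝ ∞ (ψ c) z ∧
        (cHess (ψ c) z).PosSemidef := by
      intro z hz
      have h1 := At.of_target hc.1 hz
      have h2 := hs _ _ h1
      have h3 := hψ _ _ h1
      have h4 := hpos _ _ h1
      rw [c.right_inv hz] at h2 h3 h4
      exact ⟨h2, h3, h4⟩
    have hU : IsOpen {z | z ∈ c.target ∧ s c z ≠ 0} := by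
      rw [isOpen_iff_mem_nhds]
      intro z hz
      filter_upwards [c.open_target.mem_nhds hz.1,
        (hat' z hz.1).1.continuousAt.eventually_ne hz.2] with w h1 h2 using ⟨h1, h2⟩
    have hy0 : c y ∈ {z | z ∈ c.target ∧ s c z ≠ 0} := ⟨c.map_source hc.2, hnz c y hc hy⟩
    have hvpos : ∀ z ∈ {z | z ∈ c.target ∧ s c z ≠ 0}, 0 < v (c.symm z) := by
      intro z hz
      rw [hv c _ (At.of_target hc.1 hz.1), c.right_inv hz.1]
      have := norm_pos_iff.2 hz.2
      positivity
    have h5 := local_max hU (L := fun z => Real.log (‖s c z‖ ^ 2) + ψ c z)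
      (fun z hz => (log_weight (hat' z hz.1).1 (hat' z hz.1).2.1 hz.2).1)
      (fun z hz => by
        rw [(log_weight (hat' z hz.1).1 (hat' z hz.1).2.1 hz.2).2]
        exact (hat' z hz.1).2.2) (c := Real.log (v x₀))
      (fun z hz => by
        rw [hlog c z hc.1 hz.1 hz.2]
        exact Real.log_le_log (hvpos z hz) (hmax _)) hy0
      (by rw [hlog c _ hc.1 hy0.1 hy0.2, c.left_inv hc.2, show v y = v x₀ from hy])
    have h6 : ∀ᶠ z in 𝓝 (c y), v (c.symm z) = v x₀ := by
      filter_upwards [h5, hU.mem_nhds hy0] with z h7 hz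
      rw [hlog c z hc.1 hz.1 hz.2] at h7
      exact Real.log_injOn_pos (hvpos z hz) hM h7
    filter_upwards [(c.continuousAt hc.2).eventually h6, c.open_source.mem_nhds hc.2] with w h7 hw
    rwa [c.left_inv hw] at h7
  have hall : ∀ y, v y = v x₀ := by
    have h1 : {y | v y = v x₀} = Set.univ :=
      IsClopen.eq_univ ⟨isClosed_eq hvc continuous_const, hop⟩ ⟨x₀, rfl⟩
    exact fun y => Set.eq_univ_iff_forall.1 h1 y
  have h0 := hnz e x h (hall x)
  refine ⟨h0, ?_⟩
  rw [← (log_weight (hs e x h) (hψ e x h) h0).2, ← C2.cHess_const (z := e x) (Real.log (v x₀))]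
  refine cHess_congr ?_
  filter_upwards [h.nhds_target, (hs e x h).continuousAt.eventually_ne h0] with z h1 h2
  rw [hlog e z h.1 h1 h2, hall]

variable {φ : Chart n X → Cm n → ℝ} {m : ℕ} {s : Chart n X → Cm n → ℂ}

theorem two_le {f : Cm n → ℝ} {z : Cm n} (h : ContDiffAt ℝ ∞ f z) : ContDiffAt ℝ 2 f z :=
  h.of_le (by exact WithTop.coe_le_coe.2 le_top)

/-- For a flat metric a nonzero section of `-mK` has no zero. -/
theorem ne_zero_of_flat [CompactSpace X] [ConnectedSpace X] (hφ : IsAnticanonicalMetric φ)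
    (h0 : ∀ e x, At e x → cHess (φ e) (e x) = 0) (hs : IsAnticanonicalSection m s)
    (hne : IsNonzeroSection s) (e : Chart n X) (x : X) (h : At e x) : s e (e x) ≠ 0 := by
  refine (flat_of_section (ψ := fun e z => (-m : ℝ) * φ e z) hs.holomorphic
    (fun e x h => contDiffAt_const.mul (hφ.smooth e x h)) (fun e x h => ?_)
    (fun e e' x h h' => ?_) hne e x h).1
  · rw [cHess_const_mul _ (two_le (hφ.smooth e x h)), h0 e x h, smul_zero]
    exact Matrix.PosSemidef.zero
  · have h1 : ∀ t : ℝ, Real.exp (-m * t) = Real.exp (-t) ^ m := fun t => by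
      rw [← Real.exp_nat_mul]
      congr 1
      ring
    rw [h1, h1, hφ.change e e' x h h', ← hs.change e e' x h h', norm_mul, norm_pow]
    ring

/-- The inverse of a section of `-mK` without zeros. -/
theorem inv_section (hs : IsAnticanonicalSection m s) (hne : ∀ e x, At e x → s e (e x) ≠ 0) :
    IsCanonicalSection m fun e z => (s e z)⁻¹ := by
  refine ⟨fun e x h => (hs.holomorphic e x h).inv (hne e x h), fun e e' x h h' => ?_⟩
  have h1 := pow_ne_zero m (jacM_det_ne_zero h h')
  have h2 := hne e x h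
  rw [← hs.change e e' x h h']
  field_simp

/-- A nonzero pluricanonical section forces a semipositive metric on `-K` to be flat. -/
theorem flat_of_canonical [CompactSpace X] [ConnectedSpace X] (hφ : IsAnticanonicalMetric φ)
    (hpos : IsSemipositive φ) (hm : 0 < m) (hs : IsCanonicalSection m s)
    (hne : IsNonzeroSection s) (e : Chart n X) (x : X) (h : At e x) : cHess (φ e) (e x) = 0 := by
  have h1 := (flat_of_section (ψ := fun e z => (m : ℝ) * φ e z) hs.holomorphic
    (fun e x h => contDiffAt_const.mul (hφ.smooth e x h)) (fun e x h => ?_)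
    (fun e e' x h h' => ?_) hne e x h).2
  · rw [cHess_const_mul _ (two_le (hφ.smooth e x h)), smul_eq_zero] at h1
    refine h1.resolve_left ?_
    exact_mod_cast hm.ne'
  · rw [cHess_const_mul _ (two_le (hφ.smooth e x h))]
    exact (hpos e x h).smul (by exact_mod_cast Nat.zero_le m)
  · have h2 := hφ.change e e' x h h'
    have h3 : Real.exp (φ e' (e' x)) = ‖(jacM e e' x).det‖ ^ 2 * Real.exp (φ e (e x)) := by
      rw [Real.exp_neg, Real.exp_neg] at h2
      have h4 := Real.exp_pos (φ e (e x))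
      have h5 := Real.exp_pos (φ e' (e' x))
      field_simp at h2
      linarith
    rw [Real.exp_nat_mul, Real.exp_nat_mul, h3, hs.change e e' x h h', norm_mul, norm_pow]
    ring

end Vale.Agent.N299
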