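import Vale.Agent.N299.Main

/-! Withdrawn from the hand-ins (kept as a helper file). P299: anticanonical nonvanishing, invariant sections, and Kähler manifolds. -/

open scoped Manifold ContDiff LinearAlgebra.Projectivization
open Vale.Agent.P272.K Vale.Agent.P299.Final Vale.Agent.P300.Final Vale.Agent.N299

theorem Vale.Agent.N299.oldInvariantKahler (n : ℕ) (X : Type)
    [TopologicalSpace X] [T2Space X] [CompactSpace X] [ConnectedSpace X]
    [ChartedSpace (Cm n) X] [IsManifold 𝓘(ℂ, Cm n) ω X]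
    (φ : Chart n X → Cm n → ℝ) (hφ : IsAnticanonicalMetric φ) (hpos : IsSemipositive φ) :
    -- `X` is a closed complex submanifold of a projective space
    ((∃ (N : ℕ) (Φ : X → ℙ ℂ (Fin (N + 1) → ℂ)),
        Function.Injective Φ ∧ IsProjectiveImmersion (Cm n) Φ) →
      -- (1) nonvanishing
      (∃ m : ℕ, 0 < m ∧ ∃ s : Chart n X → Cm n → ℂ,
        IsAnticanonicalSection m s ∧ IsNonzeroSection s) ∧
      -- (2) invariant nonvanishing
      (∀ (G : Type) [Group G] [Finite G] [MulAction G X],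
        (∀ g : G, ContMDiff 𝓘(ℂ, Cm n) 𝓘(ℂ, Cm n) ω fun x : X => g • x) →
        ∃ m : ℕ, 0 < m ∧ ∃ s : Chart n X → Cm n → ℂ, IsAnticanonicalSection m s ∧
          IsNonzeroSection s ∧ ∀ g : G, IsInvariant m s fun x => g • x) ∧
      ∃ w : Chart n X → Cm n → Matrix (Fin n) (Fin n) ℂ, IsKahler w) ∧
    -- `X` is Kähler
    ((∃ w : Chart n X → Cm n → Matrix (Fin n) (Fin n) ℂ, IsKahler w) →
      -- (3) nonvanishing with values in covariant tensors
      (∃ k : ℕ, ∀ m₀ : ℕ, ∃ m : ℕ, m₀ ≤ m ∧ ∃ s : Chart n X → Cm n → (Fin k → Fin n) → ℂ,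
        IsTensorSection k m s ∧ ∃ e x I, At e x ∧ s e (e x) I ≠ 0) ∧
      -- (4) flat metric, torsion canonical bundle, a nonzero plurigenus
      [∀ e x, At e x → cHess (φ e) (e x) = 0,
        ∃ m : ℕ, 0 < m ∧ ∃ s : Chart n X → Cm n → ℂ, IsAnticanonicalSection m s ∧
          ∀ e x, At e x → s e (e x) ≠ 0,
        ∃ m : ℕ, 0 < m ∧ ∃ s : Chart n X → Cm n → ℂ, IsCanonicalSection m s ∧
          IsNonzeroSection s].TFAE) := by
  refine ⟨fun ⟨N, Φ, hinj, hΦ⟩ => ?_, fun ⟨w, hw⟩ => ⟨?_, ?_⟩⟩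
  · obtain ⟨m, hm, s, hs, hne⟩ := nonvanishing hinj hΦ hφ hpos
    refine ⟨⟨m, hm, _, sec_of_ten hs, nz_of_ten hne⟩, fun G _ _ _ hG => ?_, kahler_of hΦ⟩
    exact ⟨_, Nat.mul_pos hm Nat.card_pos, exists_invariant hs hne G hG⟩
  · obtain ⟨k, hk⟩ := tensors hw hφ hpos
    refine ⟨k, fun m₀ => ?_⟩
    obtain ⟨m, hm, s, hs, hne⟩ := hk m₀
    exact ⟨m, hm, s, ⟨hs.holo, hs.change⟩, hne⟩
  · tfae_have 1 → 2 := fun h => by
      obtain ⟨m, hm, s, hs, hne⟩ := flat_section hw hφ h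
      exact ⟨m, hm, _, sec_of_ten hs, ne_zero_of_flat hφ h (sec_of_ten hs) (nz_of_ten hne)⟩
    tfae_have 2 → 3 := fun ⟨m, hm, s, hs, hne⟩ => by
      obtain ⟨x⟩ : Nonempty X := inferInstance
      have h : At (chartAt (Cm n) x) x := ⟨chart_mem_atlas _ x, mem_chart_source _ x⟩
      exact ⟨m, hm, _, inv_section hs hne, _, x, h, inv_ne_zero (hne _ x h)⟩
    tfae_have 3 → 1 := fun ⟨m, hm, s, hs, hne⟩ => flat_of_canonical hφ hpos hm hs hne
    tfae_finish
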